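import Crest.Agent.X262.PrdA18.Ad
import Crest.Agent.X262.Prd86.Gw
import Crest.Agent.X262.Syz.Prod

/-!
# Row 262, road B (helper18): the product axiom of the instance
-/

set_option autoImplicit false

noncomputable section

namespace Crest.Agent.X262.PrdA

open Crest.Agent.X262.Vb Crest.Agent.X262.Gwb

theorem gwP : GwP := by
  intro B hB J _ _ io _ _ J₁ _ _ io₁ _ _ J₂ _ _ io₂ _ _ A A₁ A₂ M K _ _ _ _ _ _ _ π₁ π₂ T T₁ T₂
    c₁ c₂ d y₀ Φ₁ Φ₂ h hS h0 G₁ a a₁ h2 hy hio hM hΦ₁ hΦ₂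
  rcases h2 with ⟨rfl, hF⟩ | ⟨G₂, a₂, D₂⟩
  · exact Prd.gw_prod0 hB h hS h0 G₁ a a₁ hF hy hio hM hΦ₁ hΦ₂
  · exact Prd.gw_prod hB h hS h0 G₁ a a₁ G₂ a₂ D₂ hy hio hM hΦ₁ hΦ₂

theorem sameP : SameP := fun m n p e D₁ D₂ =>
  (Syz.sat_pre p).same (Syz.sat_prod_pre (e.injective.comp Sum.inl_injective) D₁
    (e.injective.comp Sum.inr_injective) D₂ (pj_sp D₁ D₂).dis (pj_sp D₁ D₂).cov
    (Syz.sat_pre m) (Syz.sat_pre n)
    (Sum.rec (Syz.pv_subV_rsD D₁ (Syz.sat_pre m).on) (Syz.pv_subV_rsD D₂ (Syz.sat_pre n).on))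
    (fun a => Ideal.subset_span ⟨.inl a, rfl⟩) fun a => Ideal.subset_span ⟨.inr a, rfl⟩)

/-- **the product axiom** -/
theorem prod {C : Coh.Th} {B : Hb.Th} (V : Vir C B) : V.gw.PROD := prod_of gwP sameP V

end Crest.Agent.X262.PrdA
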