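import Crest.Agent.X262.Prd86.Pj
import Crest.Agent.X262.Gwb59.Ax
import Crest.Agent.X262.Gwb59.Smo

/-!
# Row 262, road B (helper18): the product axiom of the instance from the field level formula

* `GwP`, `GwP0` : the field level statements;  `SameP` : the ideal of a product;
* `prod_of : GwP → GwP0 → SameP → V.gw.PROD`.
-/

set_option autoImplicit false
set_option linter.unusedSectionVars false

noncomputable section

namespace Crest.Agent.X262.PrdA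

open Crest.Agent.X277 Crest.Agent.X277.BD
open Crest.Agent.X262.Coh Crest.Agent.X262.Vb Crest.Agent.X262.Qn Crest.Agent.X262.Gwb
open Crest.Agent.X262.Prd (Pj Sp)
open Crest.Agent.X262.End66 (Same sum)

/-- the product formula -/
def GwP : Prop :=
  ∀ (B : Hb.Th), B.Ax → ∀ {J : Type} [Fintype J] [DecidableEq J] {io : J → Type}
    [∀ j, Fintype (io j)] [∀ j, DecidableEq (io j)] {J₁ : Type} [Fintype J₁] [DecidableEq J₁]
    {io₁ : J₁ → Type} [∀ j, Fintype (io₁ j)] [∀ j, DecidableEq (io₁ j)] {J₂ : Type} [Fintype J₂]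
    [DecidableEq J₂] {io₂ : J₂ → Type} [∀ j, Fintype (io₂ j)] [∀ j, DecidableEq (io₂ j)]
    {A A₁ A₂ M K : Type} [Fintype A] [Fintype A₁] [Fintype A₂] [Fintype M] [Field K] [Algebra ℂ K]
    [Algebra.EssFiniteType ℂ K] (π₁ : Pj io₁ io) (π₂ : Pj io₂ io) (T : Tgt io A) (T₁ : Tgt io₁ A₁)
    (T₂ : Tgt io₂ A₂) (c₁ c₂ : ℕ) (d : J → ℕ) (y₀ : Pnt io₂ K) (Φ₁ : MFam B io₁ M)
    (Φ₂ : MFam B io₂ M), Sp π₁ π₂ → Same T (sum (π₁.tgt T₁) (π₂.tgt T₂)) →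
    (∀ k, d (π₂.g k) = 0) → Good T₁ c₁ (fun k => d (π₁.g k)) → Ax0 B T d →
    Ax0 B T₁ (fun k => d (π₁.g k)) →
    (c₂ = 0 ∧ ∀ a, T₂.F a = 0) ∨ (Good T₂ c₂ 0 ∧ Ax0 B T₂ 0 ∧ Deg0 B T₂ c₂) →
    GenPt T₂ c₂ y₀ → (∀ k, Nontrivial (io₁ k)) → 3 ≤ Fintype.card M → MCls B T₁ Φ₁ →
    MCls B T₂ Φ₂ → GW B T d (π₁.fam Φ₁ * π₂.fam Φ₂) =
      GW B T₁ (fun k => d (π₁.g k)) Φ₁ * B.itg K (Φ₂ K fun _ => y₀)

/-- the projection attached to a restriction -/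
def pj {X Y : SV} {μ : Hom X Y} {n : Pre Y} {m : Pre X} {g : n.J → m.J} (D : RsD μ n m g)
    (hg : Function.Injective g) : Pj n.io m.io := ⟨g, hg, D.e⟩

/-- the ideal of a product -/
def SameP : Prop :=
  ∀ {Y S : SV} (m : Pre Y) (n : Pre S) (p : Pre (Y.prod S)) (e : m.J ⊕ n.J ≃ p.J)
    (D₁ : RsD (fst Y S) m p fun k => e (.inl k)) (D₂ : RsD (snd Y S) n p fun k => e (.inr k)),
    Same p.tgt (sum ((pj D₁ (e.injective.comp Sum.inl_injective)).tgt m.tgt)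
      ((pj D₂ (e.injective.comp Sum.inr_injective)).tgt n.tgt))

theorem pj_sp {Y S P : SV} {μ : Hom P Y} {ν : Hom P S} {m : Pre Y} {n : Pre S} {p : Pre P}
    {e : m.J ⊕ n.J ≃ p.J} (D₁ : RsD μ m p fun k => e (.inl k))
    (D₂ : RsD ν n p fun k => e (.inr k)) : Sp (pj D₁ (e.injective.comp Sum.inl_injective))
      (pj D₂ (e.injective.comp Sum.inr_injective)) :=
  ⟨fun _ _ h => Sum.inl_ne_inr (e.injective h), fun j => by
    obtain ⟨k | k, rfl⟩ := e.surjective j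
    exacts [.inl ⟨k, rfl⟩, .inr ⟨k, rfl⟩]⟩

variable {C : Coh.Th} {B : Hb.Th}

theorem pj_mcls {X Y : SV} {μ : Hom X Y} {n : Pre Y} {m : Pre X} {g : n.J → m.J} (D : RsD μ n m g)
    (hg : Function.Injective g) {M : Type} {Φ : MFam B n.io M} (h : MCls B n.tgt Φ) :
    MCls B m.tgt ((pj D hg).fam Φ) :=
  Pj.mcls _ h fun _ _ _ _ _ h => Pre.on_iff.2 (D.on (Pre.on_iff.1 h))

theorem second (V : Vir C B) {S : SV} (n : Pre S) : (n.cod = 0 ∧ ∀ a, n.tgt.F a = 0) ∨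
    (Good n.tgt n.cod 0 ∧ Ax0 B n.tgt 0 ∧ Deg0 B n.tgt n.cod) :=
  (em (∀ a, n.tgt.F a = 0)).imp (fun h => ⟨by
    have h1 := n.tgt_isEq.rank_add
    rw [show Syz.jac n.tgt.F n.yv = 0 from Matrix.ext fun a v => by simp [Syz.jac, h],
      Matrix.rank_zero, zero_add] at h1
    rw [Pre.cod, h1, Nat.sub_self], h⟩) fun h => by
    have h3 := n.tgt_isEq.smo (not_forall.1 h)
    exact ⟨h3.good 0, V.ax0 B V.hB _ _ 0 (h3.good 0), V.deg0 B V.hB _ _ h3⟩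

/-- **the product axiom** -/
theorem prod_of (hP : GwP) (hS : SameP) (V : Vir C B) : V.gw.PROD := by
  intro Y S m n p e h1 h2 d d' hd hd' a b l
  rcases lt_or_ge l.card 2 with hl | hl
  · rw [V.low p d' _ (by rwa [Multiset.card_map]), V.low m d l hl]
    simp
  obtain ⟨D₁⟩ := exists_rsD (n := m.toPre) (m := p.toPre) h1
  obtain ⟨D₂⟩ := exists_rsD (n := n) (m := p.toPre) h2
  obtain ⟨M, _, _, x, rfl, hM⟩ := Ev.exists_idx l
  have e1 : (fun k => d' (e (.inl k))) = d := funext hd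
  have c1 := Ev.mcls_cons (V.evAx m) a x
  have c2 := mcls_at (M := Option M) (V.hI.cls n b) none
  have key := hP B V.hB _ _ p.tgt m.tgt n.tgt m.toPre.cod n.cod d' n.y _ _ (pj_sp D₁ D₂)
    (hS m.toPre n p.toPre e D₁ D₂) hd' (V.good m _) (V.a0 p d') (V.a0 m _) (second V n)
    (V.gen S n) m.nt (by rw [Fintype.card_option]; omega) c1 c2
  rw [V.itg_op p d' (by rwa [Multiset.card_map]), V.itg_op m d hl, Multiset.map_map,
    Ev.gw_cons (V.a0 p d'), Ev.gw_cons (V.a0 m d), ← V.hI.itg n b, ← e1]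
  refine Eq.trans (GW_congr (V.a0 p d') (Ev.mcls_cons (V.evAx p) _ _)
    (mcls_mul (pj_mcls D₁ _ c1) (pj_mcls D₂ _ c2)) fun E _ _ _ y h3 h4 => ?_) key
  have h5 := fun q => V.hI.rs D₁ E (y q) (h3 q) (Pre.on_iff.1 (h4 q))
  have h6 := V.hI.rs D₂ E (y none) (h3 _) (Pre.on_iff.1 (h4 _)) b
  change V.I.ev p.toPre E (y none) _ * ∏ q, V.I.ev p.toPre E (y (some q)) (C.pb _ (x q)) =
    V.I.ev m.toPre E (D₁.pt (y none)) a * (∏ q, V.I.ev m.toPre E (D₁.pt (y (some q))) (x q)) *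
      V.I.ev n E (D₂.pt (y none)) b
  simp only [map_mul, h5, h6]
  ring

end Crest.Agent.X262.PrdA
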